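import Vale.Agent.Lib.P040.TP.Cert7Defs

namespace Vale.Agent.Lib.P040.TP

set_option maxRecDepth 100000 in
theorem check7_1_1 : check7 1 1 = true := by decide +kernel

set_option maxRecDepth 100000 in
theorem check7_1_2 : check7 1 2 = true := by decide +kernel

set_option maxRecDepth 100000 in
theorem check7_1_3 : check7 1 3 = true := by decide +kernel

set_option maxRecDepth 100000 in
theorem check7_1_4 : check7 1 4 = true := by decide +kernel

set_option maxRecDepth 100000 in
theorem check7_1_5 : check7 1 5 = true := by decide +kernel

set_option maxRecDepth 100000 in
theorem check7_1_6 : check7 1 6 = true := by decide +kernel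

set_option maxRecDepth 100000 in
theorem check7_1_7 : check7 1 7 = true := by decide +kernel

end Vale.Agent.Lib.P040.TP
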