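import Vale.Agent.Lib.P040.TP.Cert7Defs

namespace Vale.Agent.Lib.P040.TP

set_option maxRecDepth 100000 in
theorem check7_7_7 : check7 7 7 = true := by decide +kernel

end Vale.Agent.Lib.P040.TP
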