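import Vale.Agent.Lib.P040.TP.Cert7G0
import Vale.Agent.Lib.P040.TP.Cert7G1
import Vale.Agent.Lib.P040.TP.Cert7G2
import Vale.Agent.Lib.P040.TP.Cert7G3
import Vale.Agent.Lib.P040.TP.Cert7G4
import Vale.Agent.Lib.P040.TP.Cert7G5
import Vale.Agent.Lib.P040.TP.Cert7G6
import Vale.Agent.Lib.P040.TP.Cert7G7

namespace Vale.Agent.Lib.P040.TP

theorem allBelow_spec (n : ℕ) (p : ℕ → Bool) (h : allBelow n p = true) :
    ∀ k, k < n → p k = true := by
  induction n with
  | zero => intro k hk; omega
  | succ n ih =>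
    intro k hk
    simp only [allBelow, Bool.and_eq_true] at h
    rcases Nat.lt_succ_iff_lt_or_eq.mp hk with h' | h'
    · exact ih h.2 k h'
    · subst h'; exact h.1

theorem check7_all (g g' : ℕ) (h : g ≤ g') (h' : g' ≤ 7) : check7 g g' = true := by
  interval_cases g' <;> interval_cases g
  exacts [check7_0_0, check7_0_1, check7_1_1, check7_0_2, check7_1_2, check7_2_2, check7_0_3, check7_1_3, check7_2_3, check7_3_3, check7_0_4, check7_1_4, check7_2_4, check7_3_4, check7_4_4, check7_0_5, check7_1_5, check7_2_5, check7_3_5, check7_4_5, check7_5_5, check7_0_6, check7_1_6, check7_2_6, check7_3_6, check7_4_6, check7_5_6, check7_6_6, check7_0_7, check7_1_7, check7_2_7, check7_3_7, check7_4_7, check7_5_7, check7_6_7, check7_7_7]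

/-- The raw certificate: two stars in gaps `g ≤ g' ≤ 7` with page codes `c`, `c'` cross at least
as often as their nine-bit vectors agree. -/
theorem cert7_raw (g g' c c' : ℕ) (h : g ≤ g') (h' : g' ≤ 7) (hc : c < 128) (hc' : c' < 128) :
    agree9 (sig7 g c) (sig7 g' c') ≤ cr7 g g' c c' := by
  have h1 : allBelow 128 (fun c => allBelow 128 (fun c' =>
      Nat.ble (agree9 (sig7 g c) (sig7 g' c')) (cr7 g g' c c'))) = true := check7_all g g' h h'
  have h2 := allBelow_spec 128 _ h1 c hc
  have h3 := allBelow_spec 128 _ h2 c' hc'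
  exact Nat.le_of_ble_eq_true h3

end Vale.Agent.Lib.P040.TP
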