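import Vale.Agent.Lib.P040.TP.Cert7Defs

/-!
# Bit-level bridge A: page codes of Boolean vectors and the agreement count

`code7 x` is the page code of a vector `x : Fin 7 → Bool`; `bitB` reads its bits back, and
`agree9 a b` counts the positions `k < 9` at which the bits of `a` and `b` agree.
-/

namespace Vale.Agent.Lib.P040.TP

/-- Page code of a page vector. -/
def code7 (x : Fin 7 → Bool) : ℕ := ∑ j : Fin 7, if x j then 2 ^ (j : ℕ) else 0

theorem bitB_eq_testBit (c j : ℕ) : bitB c j = c.testBit j := by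
  have h1 : bitB c j = Nat.ble 1 ((c >>> j) &&& 1) := rfl
  rw [h1, Nat.and_one_is_mod, Nat.shiftRight_eq_div_pow, Nat.testBit_eq_decide_div_mod_eq]
  rcases Nat.mod_two_eq_zero_or_one (c / 2 ^ j) with h | h <;> rw [h] <;> rfl

/-- The page code written out on seven Booleans. -/
def code7Aux (b0 b1 b2 b3 b4 b5 b6 : Bool) : ℕ :=
  (cond b0 1 0) + (cond b1 2 0) + (cond b2 4 0) + (cond b3 8 0) + (cond b4 16 0)
    + (cond b5 32 0) + (cond b6 64 0)

theorem code7_eq_aux (x : Fin 7 → Bool) :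
    code7 x = code7Aux (x 0) (x 1) (x 2) (x 3) (x 4) (x 5) (x 6) := by
  unfold code7 code7Aux
  rw [Fin.sum_univ_seven]
  cases x 0 <;> cases x 1 <;> cases x 2 <;> cases x 3 <;> cases x 4 <;> cases x 5 <;>
    cases x 6 <;> rfl

theorem code7Aux_spec : ∀ b0 b1 b2 b3 b4 b5 b6 : Bool,
    code7Aux b0 b1 b2 b3 b4 b5 b6 < 128 ∧
    bitB (code7Aux b0 b1 b2 b3 b4 b5 b6) 0 = b0 ∧
    bitB (code7Aux b0 b1 b2 b3 b4 b5 b6) 1 = b1 ∧
    bitB (code7Aux b0 b1 b2 b3 b4 b5 b6) 2 = b2 ∧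
    bitB (code7Aux b0 b1 b2 b3 b4 b5 b6) 3 = b3 ∧
    bitB (code7Aux b0 b1 b2 b3 b4 b5 b6) 4 = b4 ∧
    bitB (code7Aux b0 b1 b2 b3 b4 b5 b6) 5 = b5 ∧
    bitB (code7Aux b0 b1 b2 b3 b4 b5 b6) 6 = b6 := by
  decide

theorem code7_lt (x : Fin 7 → Bool) : code7 x < 128 := by
  rw [code7_eq_aux]
  exact (code7Aux_spec _ _ _ _ _ _ _).1

theorem bitB_code7 (x : Fin 7 → Bool) (j : Fin 7) : bitB (code7 x) (j : ℕ) = x j := by
  rw [code7_eq_aux]
  obtain ⟨-, h0, h1, h2, h3, h4, h5, h6⟩ := code7Aux_spec (x 0) (x 1) (x 2) (x 3) (x 4) (x 5) (x 6)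
  fin_cases j
  · exact h0
  · exact h1
  · exact h2
  · exact h3
  · exact h4
  · exact h5
  · exact h6

/-- `allBelow n p` gives `p k` for all `k < n`. -/
theorem allBelow_specA (n : ℕ) (p : ℕ → Bool) (h : allBelow n p = true) :
    ∀ k, k < n → p k = true := by
  induction n with
  | zero =>
    intro k hk
    omega
  | succ n ih =>
    intro k hk
    simp only [allBelow, Bool.and_eq_true] at h
    rcases Nat.lt_succ_iff_lt_or_eq.mp hk with h1 | h1
    · exact ih h.2 k h1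
    · rw [h1]
      exact h.1

/-- Number of one bits among the nine lowest bits, as a nine-term sum. -/
def pop9 (v : ℕ) : ℕ :=
  (cond (bitB v 0) 1 0) + ((cond (bitB v 1) 1 0) + (cond (bitB v 2) 1 0)
    + (cond (bitB v 3) 1 0) + (cond (bitB v 4) 1 0) + (cond (bitB v 5) 1 0)
    + (cond (bitB v 6) 1 0) + (cond (bitB v 7) 1 0) + (cond (bitB v 8) 1 0))

theorem pcT9_check :
    allBelow 512 (fun v => Nat.beq (Nat.mod (Nat.shiftRight pcT9 (Nat.mul 4 v)) 16) (pop9 v))
      = true := by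
  decide +kernel

theorem pcT9_spec (v : ℕ) (hv : v < 512) :
    Nat.mod (Nat.shiftRight pcT9 (Nat.mul 4 v)) 16 = pop9 v :=
  Nat.eq_of_beq_eq_true (allBelow_specA 512 _ pcT9_check v hv)

theorem pop9_eq_card (v : ℕ) :
    pop9 v = ((Finset.univ : Finset (Fin 9)).filter
      (fun k : Fin 9 => bitB v (k : ℕ) = true)).card := by
  rw [Finset.card_filter, Fin.sum_univ_succ, Fin.sum_univ_eight]
  unfold pop9
  simp only [cond_eq_ite]
  rfl

theorem bitB_xor (a b k : ℕ) : bitB (Nat.xor a b) k = (bitB a k != bitB b k) := by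
  rw [bitB_eq_testBit, bitB_eq_testBit, bitB_eq_testBit]
  exact Nat.testBit_xor a b k

theorem agree9_eq (a b : ℕ) (ha : a < 512) (hb : b < 512) :
    agree9 a b = ((Finset.univ : Finset (Fin 9)).filter
      (fun k : Fin 9 => bitB a (k : ℕ) = bitB b (k : ℕ))).card := by
  have hx : Nat.xor a b < 512 := Nat.xor_lt_two_pow (n := 9) ha hb
  have h1 : agree9 a b = 9 - pop9 (Nat.xor a b) := by
    unfold agree9
    rw [pcT9_spec _ hx]
    rfl
  have h2 : ((Finset.univ : Finset (Fin 9)).filter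
      (fun k : Fin 9 => bitB (Nat.xor a b) (k : ℕ) = true))
      = (Finset.univ : Finset (Fin 9)).filter
        (fun k : Fin 9 => ¬ (bitB a (k : ℕ) = bitB b (k : ℕ))) := by
    apply Finset.filter_congr
    intro k _
    rw [bitB_xor]
    cases bitB a (k : ℕ) <;> cases bitB b (k : ℕ) <;> simp
  have h3 := Finset.card_filter_add_card_filter_not (s := (Finset.univ : Finset (Fin 9)))
    (fun k : Fin 9 => bitB a (k : ℕ) = bitB b (k : ℕ))
  rw [Finset.card_univ, Fintype.card_fin] at h3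
  rw [h1, pop9_eq_card, h2]
  omega

end Vale.Agent.Lib.P040.TP
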