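import Vale.Agent.Lib.P040.TP.Defs
import Vale.Agent.Lib.P040.TP.Cert7Defs

/-!
# Bridge C: the fast crossing count `cr7` counts the crossing pairs

`cr7 g g' c c'` (masks and a packed table of bit counts) equals the number of pairs `(j, l)` of
points with the interleaving condition `CrossCond g g' j l` whose arcs lie on the same page.
-/

namespace Vale.Agent.Lib.P040.TP

/-- `bitB c j` is bit `j` of `c`. -/
theorem bitB_testBit_c (c j : ℕ) : bitB c j = c.testBit j := by
  unfold bitB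
  rw [Nat.testBit_eq_decide_div_mod_eq]
  show Nat.ble 1 ((c >>> j) &&& 1) = _
  rw [Nat.and_one_is_mod, Nat.shiftRight_eq_div_pow]
  have h : c / 2 ^ j % 2 < 2 := Nat.mod_lt _ (by norm_num)
  rcases Nat.lt_or_ge (c / 2 ^ j % 2) 1 with h1 | h1
  · have h0 : c / 2 ^ j % 2 = 0 := by omega
    rw [h0]
    rfl
  · have h0 : c / 2 ^ j % 2 = 1 := by omega
    rw [h0]
    rfl

/-- `allBelow n p` gives `p k` for all `k < n`. -/
theorem allBelow_spec_c (n : ℕ) (p : ℕ → Bool) (h : allBelow n p = true) :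
    ∀ k < n, p k = true := by
  induction n with
  | zero =>
    intro k hk
    omega
  | succ n ih =>
    intro k hk
    simp only [allBelow, Bool.and_eq_true] at h
    rcases Nat.lt_succ_iff_lt_or_eq.mp hk with h1 | h1
    · exact ih h.2 k h1
    · rw [h1]
      exact h.1

/-- The number of one bits among the seven lowest bits, as an explicit sum. -/
def pop7Sum (v : ℕ) : ℕ :=
  Nat.add (Nat.add (Nat.add (Nat.add (Nat.add (Nat.add (cond (bitB v 0) 1 0)
    (cond (bitB v 1) 1 0)) (cond (bitB v 2) 1 0)) (cond (bitB v 3) 1 0))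
    (cond (bitB v 4) 1 0)) (cond (bitB v 5) 1 0)) (cond (bitB v 6) 1 0)

theorem pop7_check : allBelow 128 (fun v => Nat.beq (pop7 v) (pop7Sum v)) = true := by
  decide +kernel

/-- The packed table gives the number of one bits. -/
theorem pop7_spec (v : ℕ) (hv : v < 128) :
    pop7 v = ((Finset.univ : Finset (Fin 7)).filter
      (fun l : Fin 7 => bitB v (l : ℕ) = true)).card := by
  have h := allBelow_spec_c 128 _ pop7_check v hv
  have h2 : pop7 v = pop7Sum v := Nat.eq_of_beq_eq_true h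
  rw [h2, Finset.card_filter, Fin.sum_univ_seven]
  unfold pop7Sum
  simp only [cond_eq_ite, Nat.add_eq]
  rfl

/-- The mask with the seven given bits. -/
def mask7 (b0 b1 b2 b3 b4 b5 b6 : Bool) : ℕ :=
  Nat.add (Nat.add (Nat.add (Nat.add (Nat.add (Nat.add (cond b0 1 0)
    (cond b1 2 0)) (cond b2 4 0)) (cond b3 8 0))
    (cond b4 16 0)) (cond b5 32 0)) (cond b6 64 0)

theorem mask7_spec : ∀ b0 b1 b2 b3 b4 b5 b6 : Bool,
    mask7 b0 b1 b2 b3 b4 b5 b6 < 128 ∧
    bitB (mask7 b0 b1 b2 b3 b4 b5 b6) 0 = b0 ∧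
    bitB (mask7 b0 b1 b2 b3 b4 b5 b6) 1 = b1 ∧
    bitB (mask7 b0 b1 b2 b3 b4 b5 b6) 2 = b2 ∧
    bitB (mask7 b0 b1 b2 b3 b4 b5 b6) 3 = b3 ∧
    bitB (mask7 b0 b1 b2 b3 b4 b5 b6) 4 = b4 ∧
    bitB (mask7 b0 b1 b2 b3 b4 b5 b6) 5 = b5 ∧
    bitB (mask7 b0 b1 b2 b3 b4 b5 b6) 6 = b6 := by
  decide

theorem maskL7_eq (g g' j : ℕ) :
    maskL7 g g' j = mask7 (crossB g g' j 0) (crossB g g' j 1) (crossB g g' j 2)
      (crossB g g' j 3) (crossB g g' j 4) (crossB g g' j 5) (crossB g g' j 6) := rfl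

theorem maskL7_lt (g g' j : ℕ) : maskL7 g g' j < 128 := by
  rw [maskL7_eq]
  exact (mask7_spec _ _ _ _ _ _ _).1

theorem bitB_maskL7 (g g' j : ℕ) (l : Fin 7) :
    bitB (maskL7 g g' j) (l : ℕ) = crossB g g' j (l : ℕ) := by
  have h := mask7_spec (crossB g g' j 0) (crossB g g' j 1) (crossB g g' j 2)
      (crossB g g' j 3) (crossB g g' j 4) (crossB g g' j 5) (crossB g g' j 6)
  rw [maskL7_eq]
  fin_cases l
  · exact h.2.1
  · exact h.2.2.1
  · exact h.2.2.2.1
  · exact h.2.2.2.2.1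
  · exact h.2.2.2.2.2.1
  · exact h.2.2.2.2.2.2.1
  · exact h.2.2.2.2.2.2.2

theorem crossB_iff (g g' j l : ℕ) : crossB g g' j l = true ↔ CrossCond g g' j l := by
  simp only [crossB, CrossCond, Bool.or_eq_true, Bool.and_eq_true, Nat.blt_eq, Nat.ble_eq]
  tauto

theorem testBit_127 (l : Fin 7) : Nat.testBit 127 (l : ℕ) = true := by
  fin_cases l <;> rfl

/-- Crossings of the arc to point `j` with the second star. -/
theorem crj7_spec (g g' c c' : ℕ) (j : Fin 7) :
    crj7 (maskL7 g g' j) c c' (Nat.xor c' 127) j =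
      ((Finset.univ : Finset (Fin 7)).filter (fun l : Fin 7 =>
        CrossCond g g' (j : ℕ) (l : ℕ) ∧ bitB c (j : ℕ) = bitB c' (l : ℕ))).card := by
  unfold crj7
  have hm := maskL7_lt g g' j
  cases hb : bitB c (j : ℕ)
  · show pop7 (Nat.land (Nat.xor c' 127) (maskL7 g g' j)) = _
    have hlt : Nat.land (Nat.xor c' 127) (maskL7 g g' j) < 128 :=
      lt_of_le_of_lt Nat.and_le_right hm
    rw [pop7_spec _ hlt]
    congr 1
    apply Finset.filter_congr
    intro l _
    rw [bitB_testBit_c]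
    show ((c' ^^^ 127) &&& maskL7 g g' j).testBit l = true ↔ _
    rw [Nat.testBit_and, Nat.testBit_xor, testBit_127, ← bitB_testBit_c, ← bitB_testBit_c,
      bitB_maskL7, ← crossB_iff]
    cases bitB c' (l : ℕ) <;> cases crossB g g' (j : ℕ) (l : ℕ) <;> simp
  · show pop7 (Nat.land c' (maskL7 g g' j)) = _
    have hlt : Nat.land c' (maskL7 g g' j) < 128 :=
      lt_of_le_of_lt Nat.and_le_right hm
    rw [pop7_spec _ hlt]
    congr 1
    apply Finset.filter_congr
    intro l _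
    rw [bitB_testBit_c]
    show (c' &&& maskL7 g g' j).testBit l = true ↔ _
    rw [Nat.testBit_and, ← bitB_testBit_c, ← bitB_testBit_c, bitB_maskL7, ← crossB_iff]
    cases bitB c' (l : ℕ) <;> cases crossB g g' (j : ℕ) (l : ℕ) <;> simp

/-- The fast crossing count is the number of crossing pairs on the same page. -/
theorem cr7_eq (g g' c c' : ℕ) (h : g ≤ g') (h' : g' ≤ 7) (hc : c < 128) (hc' : c' < 128) :
    cr7 g g' c c' = ((Finset.univ : Finset (Fin 7 × Fin 7)).filter
      (fun p : Fin 7 × Fin 7 => CrossCond g g' (p.1 : ℕ) (p.2 : ℕ) ∧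
        bitB c (p.1 : ℕ) = bitB c' (p.2 : ℕ))).card := by
  have _h := h
  have _h' := h'
  have _hc := hc
  have _hc' := hc'
  rw [Finset.card_filter, Fintype.sum_prod_type]
  have hj : ∀ j : Fin 7, (∑ l : Fin 7, if CrossCond g g' (j : ℕ) (l : ℕ) ∧
      bitB c (j : ℕ) = bitB c' (l : ℕ) then 1 else 0) =
      crj7 (maskL7 g g' j) c c' (Nat.xor c' 127) j := by
    intro j
    rw [crj7_spec, Finset.card_filter]
  simp only [hj]
  rw [Fin.sum_univ_seven]
  rfl

end Vale.Agent.Lib.P040.TP
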