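import Vale.Agent.Lib.P040.TP.Cert7Defs

namespace Vale.Agent.Lib.P040.TP

set_option maxRecDepth 100000 in
theorem check7_0_0 : check7 0 0 = true := by decide +kernel

set_option maxRecDepth 100000 in
theorem check7_0_1 : check7 0 1 = true := by decide +kernel

set_option maxRecDepth 100000 in
theorem check7_0_2 : check7 0 2 = true := by decide +kernel

set_option maxRecDepth 100000 in
theorem check7_0_3 : check7 0 3 = true := by decide +kernel

set_option maxRecDepth 100000 in
theorem check7_0_4 : check7 0 4 = true := by decide +kernel

set_option maxRecDepth 100000 in
theorem check7_0_5 : check7 0 5 = true := by decide +kernel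

set_option maxRecDepth 100000 in
theorem check7_0_6 : check7 0 6 = true := by decide +kernel

set_option maxRecDepth 100000 in
theorem check7_0_7 : check7 0 7 = true := by decide +kernel

end Vale.Agent.Lib.P040.TP
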