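import Vale.Agent.Lib.P040.Counting

namespace Vale.Agent.Lib.P040.TP

open Finset

/-- T1: cut counting. If every pair `i < i'` is charged at least the number of cuts `k` that
do not separate `i` from `i'`, then the total charge is at least `D * ⌊m/2⌋ * ⌊(m-1)/2⌋`:
each cut leaves at least `⌊m/2⌋ * ⌊(m-1)/2⌋` pairs unseparated. -/
theorem sum_cuts (m D : ℕ) (s : Fin m → Fin D → Bool) (A : Fin m → Fin m → ℕ)
    (hA : ∀ i i', i < i' →
      ((Finset.univ : Finset (Fin D)).filter (fun k => s i k = s i' k)).card ≤ A i i') :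
    D * ((m / 2) * ((m - 1) / 2)) ≤
      ∑ p ∈ (Finset.univ : Finset (Fin m × Fin m)).filter (fun p => p.1 < p.2), A p.1 p.2 := by
  classical
  calc D * ((m / 2) * ((m - 1) / 2))
      = ∑ _k : Fin D, (m / 2) * ((m - 1) / 2) := by
        rw [Finset.sum_const, Finset.card_univ, Fintype.card_fin, smul_eq_mul]
    _ ≤ ∑ k : Fin D, ((Finset.univ : Finset (Fin m × Fin m)).filter
          (fun p => p.1 < p.2 ∧ s p.1 k = s p.2 k)).card :=
        Finset.sum_le_sum (fun k _ => Vale.Agent.Lib.P040.mono_pairs m (fun i => s i k))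
    _ = ∑ k : Fin D, ∑ p ∈ (Finset.univ : Finset (Fin m × Fin m)).filter (fun p => p.1 < p.2),
          (if s p.1 k = s p.2 k then 1 else 0) := by
        refine Finset.sum_congr rfl (fun k _ => ?_)
        rw [← Finset.filter_filter, Finset.card_filter]
    _ = ∑ p ∈ (Finset.univ : Finset (Fin m × Fin m)).filter (fun p => p.1 < p.2),
          ∑ k : Fin D, (if s p.1 k = s p.2 k then 1 else 0) := Finset.sum_comm
    _ = ∑ p ∈ (Finset.univ : Finset (Fin m × Fin m)).filter (fun p => p.1 < p.2),
          ((Finset.univ : Finset (Fin D)).filter (fun k => s p.1 k = s p.2 k)).card := by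
        refine Finset.sum_congr rfl (fun p _ => ?_)
        rw [Finset.card_filter]
    _ ≤ ∑ p ∈ (Finset.univ : Finset (Fin m × Fin m)).filter (fun p => p.1 < p.2), A p.1 p.2 :=
        Finset.sum_le_sum (fun p hp => hA p.1 p.2 (Finset.mem_filter.1 hp).2)

end Vale.Agent.Lib.P040.TP
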