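import Mathlib

/-!
# Two-page drawings of complete bipartite graphs: combinatorial core

The `n` points of the second class sit on the spine at increasing positions `0, 1, ..., n-1`
(by rank). A vertex of the first class sits in a gap: gap `g` has exactly `g` second-class points
to its left. `CrossCond g g' j l` says that the arc from a vertex in gap `g` to point `j` and the
arc from a vertex further right, in gap `g'`, to point `l` have interleaving end points.
-/

namespace Vale.Agent.Lib.P040.TP

/-- Interleaving condition for a first vertex in gap `g` joined to point `j` and a second vertex,
further to the right, in gap `g'` joined to point `l`. -/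
abbrev CrossCond (g g' j l : ℕ) : Prop :=
  (j < l ∧ l < g) ∨ (g' ≤ j ∧ (l < g ∨ j < l)) ∨ (g ≤ l ∧ l < j ∧ j < g')

/-- The two arcs `(a, c)` and `(a', c')` over the spine interleave: exactly one of `a'`, `c'`
lies strictly between `a` and `c`. -/
abbrev Interleave (a c a' c' : ℝ) : Prop :=
  (min a c < a' ∧ a' < max a c) ↔ ¬ (min a c < c' ∧ c' < max a c)

end Vale.Agent.Lib.P040.TP
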