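import Vale.Agent.Lib.P040.TP.Defs

/-!
# Interleaving of two arcs on a line is symmetric

For four distinct points on a line, the arc `(a, c)` separates `a'` from `c'` exactly when the
arc `(a', c')` separates `a` from `c`.
-/

namespace Vale.Agent.Lib.P040.TP

set_option linter.unusedSimpArgs false in
theorem interleave_symm (a c a' c' : ℝ) (h1 : a ≠ a') (h2 : a ≠ c') (h3 : c ≠ a') (h4 : c ≠ c')
    (h5 : a ≠ c) (h6 : a' ≠ c') :
    Interleave a c a' c' ↔ Interleave a' c' a c := by
  unfold Interleave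
  rcases lt_or_gt_of_ne h5 with h5 | h5 <;> rcases lt_or_gt_of_ne h6 with h6 | h6 <;>
    rcases lt_or_gt_of_ne h1 with h1 | h1 <;> rcases lt_or_gt_of_ne h2 with h2 | h2 <;>
    rcases lt_or_gt_of_ne h3 with h3 | h3 <;> rcases lt_or_gt_of_ne h4 with h4 | h4 <;>
    first
    | (exfalso; linarith)
    | simp [min_eq_left, min_eq_right, max_eq_left, max_eq_right, h1, h2, h3, h4, h5, h6,
        h1.le, h2.le, h3.le, h4.le, h5.le, h6.le, not_lt_of_gt h1, not_lt_of_gt h2,
        not_lt_of_gt h3, not_lt_of_gt h4, not_lt_of_gt h5, not_lt_of_gt h6]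

end Vale.Agent.Lib.P040.TP
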