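import Vale.Agent.Lib.P040.TP.Defs

/-!
# Interleaving of arcs over sorted points

For points `b 0 < b 1 < ...` on the spine and two further positions `r1 < r2` off the points,
the geometric interleaving condition for the arcs `(r1, b j)` and `(r2, b l)` is the
combinatorial condition `CrossCond` on the gaps of `r1`, `r2` and the ranks `j`, `l`.
-/

namespace Vale.Agent.Lib.P040.TP

/-- For sorted points, `b t < r` says that the rank of `t` is below the gap of `r`. -/
theorem translate_lt_iff (n : ℕ) (b : Fin n → ℝ) (hb : StrictMono b) (r : ℝ) (t : Fin n) :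
    b t < r ↔ (t : ℕ) < (Finset.univ.filter (fun s => b s < r)).card := by
  constructor
  · intro h
    have hsub : Finset.Iic t ⊆ Finset.univ.filter (fun s => b s < r) := by
      intro s hs
      rw [Finset.mem_Iic] at hs
      rw [Finset.mem_filter]
      exact ⟨Finset.mem_univ s, lt_of_le_of_lt (hb.monotone hs) h⟩
    have hcard := Finset.card_le_card hsub
    rw [Fin.card_Iic] at hcard
    omega
  · intro h
    by_contra hcon
    have hsub : Finset.univ.filter (fun s => b s < r) ⊆ Finset.Iio t := by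
      intro s hs
      rw [Finset.mem_filter] at hs
      rw [Finset.mem_Iio]
      by_contra hst
      exact hcon (lt_of_le_of_lt (hb.monotone (not_lt.1 hst)) hs.2)
    have hcard := Finset.card_le_card hsub
    rw [Fin.card_Iio] at hcard
    omega

/-- T2: translation of the geometric interleaving condition for sorted points. -/
theorem interleave_iff_crossCond (n : ℕ) (b : Fin n → ℝ) (hb : StrictMono b) (r1 r2 : ℝ)
    (h12 : r1 < r2) (h1 : ∀ j, r1 ≠ b j) (h2 : ∀ j, r2 ≠ b j) (j l : Fin n) (hjl : j ≠ l) :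
    Interleave r1 (b j) r2 (b l) ↔
      CrossCond ((Finset.univ.filter (fun t => b t < r1)).card)
        ((Finset.univ.filter (fun t => b t < r2)).card) j l := by
  obtain ⟨g1, hg1⟩ : ∃ g, g = (Finset.univ.filter (fun t => b t < r1)).card := ⟨_, rfl⟩
  obtain ⟨g2, hg2⟩ : ∃ g, g = (Finset.univ.filter (fun t => b t < r2)).card := ⟨_, rfl⟩
  rw [← hg1, ← hg2]
  have k1 : ∀ t : Fin n, b t < r1 ↔ (t : ℕ) < g1 := by
    intro t
    rw [hg1]
    exact translate_lt_iff n b hb r1 t
  have k2 : ∀ t : Fin n, b t < r2 ↔ (t : ℕ) < g2 := by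
    intro t
    rw [hg2]
    exact translate_lt_iff n b hb r2 t
  have hg12 : g1 ≤ g2 := by
    rw [hg1, hg2]
    apply Finset.card_le_card
    intro s hs
    rw [Finset.mem_filter] at hs ⊢
    exact ⟨hs.1, hs.2.trans h12⟩
  have hne : (j : ℕ) ≠ (l : ℕ) := fun h => hjl (Fin.ext h)
  have hjl1 : b j < b l ↔ (j : ℕ) < (l : ℕ) := by
    rw [hb.lt_iff_lt]
    exact Fin.lt_def
  have hlj1 : b l < b j ↔ (l : ℕ) < (j : ℕ) := by
    rw [hb.lt_iff_lt]
    exact Fin.lt_def
  have n1 : ∀ t : Fin n, r1 < b t ↔ g1 ≤ (t : ℕ) := by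
    intro t
    rw [← not_lt, ← k1 t]
    constructor
    · intro h
      exact not_lt.2 h.le
    · intro h
      exact lt_of_le_of_ne (not_lt.1 h) (h1 t)
  have n2 : ∀ t : Fin n, r2 < b t ↔ g2 ≤ (t : ℕ) := by
    intro t
    rw [← not_lt, ← k2 t]
    constructor
    · intro h
      exact not_lt.2 h.le
    · intro h
      exact lt_of_le_of_ne (not_lt.1 h) (h2 t)
  show ((min r1 (b j) < r2 ∧ r2 < max r1 (b j)) ↔ ¬ (min r1 (b j) < b l ∧ b l < max r1 (b j))) ↔
    (((j : ℕ) < (l : ℕ) ∧ (l : ℕ) < g1) ∨ (g2 ≤ (j : ℕ) ∧ ((l : ℕ) < g1 ∨ (j : ℕ) < (l : ℕ))) ∨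
      (g1 ≤ (l : ℕ) ∧ (l : ℕ) < (j : ℕ) ∧ (j : ℕ) < g2))
  rcases lt_or_gt_of_ne (h1 j) with hA | hA
  · have hA' := (n1 j).1 hA
    rw [min_eq_left hA.le, max_eq_right hA.le, n2 j, n1 l, hlj1]
    simp only [h12, true_and]
    omega
  · have hA' := (k1 j).1 hA
    have h21 : ¬ r2 < r1 := not_lt.2 h12.le
    rw [min_eq_right hA.le, max_eq_left hA.le, k2 j, hjl1, k1 l]
    simp only [h21, and_false, false_iff, not_not]
    omega

end Vale.Agent.Lib.P040.TP
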