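import Vale.Agent.Lib.P040.TP.Defs
import Vale.Agent.Lib.P040.TP.Cuts
import Vale.Agent.Lib.P040.TP.Translate
import Vale.Agent.Lib.P040.TP.Symm

/-!
# Two-page drawings: from a finite certificate to the lower bound

The generic reduction: a certificate for `n` sorted second-class points gives the lower bound
for every two-page drawing of the complete bipartite graph with `n` second-class points.
-/

namespace Vale.Agent.Lib.P040.TP

open Finset

/-- The crossing condition with ordered gaps forces distinct points. -/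
theorem reduce_crossCond_ne {g g' j l : ℕ} (hgg : g ≤ g') (h : CrossCond g g' j l) : j ≠ l := by
  unfold CrossCond at h
  omega

/-- The reduction for sorted second-class points. -/
theorem reduce_sorted (n D : ℕ) (σ : ℕ → (Fin n → Bool) → Fin D → Bool)
    (hcert : ∀ (g g' : ℕ) (x x' : Fin n → Bool), g ≤ g' → g' ≤ n →
      ((Finset.univ : Finset (Fin D)).filter (fun k => σ g x k = σ g' x' k)).card ≤
        ((Finset.univ : Finset (Fin n × Fin n)).filter
          (fun p => CrossCond g g' p.1 p.2 ∧ x p.1 = x' p.2)).card)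
    (m : ℕ) (r : Fin m → ℝ) (b : Fin n → ℝ) (page : Fin m → Fin n → Bool)
    (hr : Function.Injective r) (hb : StrictMono b) (hrb : ∀ i j, r i ≠ b j) :
    D * ((m / 2) * ((m - 1) / 2)) ≤
      Set.ncard {p : (Fin m × Fin n) × (Fin m × Fin n) |
        p.1.1 < p.2.1 ∧ p.1.2 ≠ p.2.2 ∧ page p.1.1 p.1.2 = page p.2.1 p.2.2 ∧
          Interleave (r p.1.1) (b p.1.2) (r p.2.1) (b p.2.2)} := by
  classical
  set g : Fin m → ℕ := fun i => (univ.filter (fun t => b t < r i)).card with hg
  set A : Fin m → Fin m → ℕ := fun i i' =>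
    (univ.filter (fun q : Fin n × Fin n => q.1 ≠ q.2 ∧ page i q.1 = page i' q.2 ∧
      Interleave (r i) (b q.1) (r i') (b q.2))).card with hA
  have hgn : ∀ i, g i ≤ n := fun i => by
    have h := Finset.card_le_univ (univ.filter (fun t => b t < r i))
    simpa using h
  have hgmono : ∀ i i', r i < r i' → g i ≤ g i' := fun i i' h => by
    apply Finset.card_le_card
    intro t ht
    simp only [mem_filter, mem_univ, true_and] at ht ⊢
    exact ht.trans h
  have hstep : ∀ i i', i < i' →
      (univ.filter (fun k => σ (g i) (page i) k = σ (g i') (page i') k)).card ≤ A i i' := by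
    intro i i' hii
    have hne : r i ≠ r i' := fun h => (ne_of_lt hii) (hr h)
    rcases lt_or_gt_of_ne hne with hlt | hgt
    · refine le_trans (hcert (g i) (g i') (page i) (page i') (hgmono i i' hlt) (hgn i')) ?_
      apply Finset.card_le_card
      intro q hq
      simp only [mem_filter, mem_univ, true_and] at hq ⊢
      have hq12 : q.1 ≠ q.2 := fun h =>
        reduce_crossCond_ne (hgmono i i' hlt) hq.1 (congrArg Fin.val h)
      exact ⟨hq12, hq.2,
        (interleave_iff_crossCond n b hb (r i) (r i') hlt (hrb i) (hrb i') q.1 q.2 hq12).2 hq.1⟩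
    · have h1 := hcert (g i') (g i) (page i') (page i) (hgmono i' i hgt) (hgn i)
      have heq : (univ.filter (fun k => σ (g i) (page i) k = σ (g i') (page i') k)) =
          (univ.filter (fun k => σ (g i') (page i') k = σ (g i) (page i) k)) := by
        apply Finset.filter_congr
        intro k _
        exact eq_comm
      rw [heq]
      refine le_trans h1 ?_
      apply Finset.card_le_card_of_injOn Prod.swap
      · intro p hp
        simp only [Finset.mem_coe, mem_filter, mem_univ, true_and, Prod.fst_swap,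
          Prod.snd_swap] at hp ⊢
        have hp12 : p.1 ≠ p.2 := fun h =>
          reduce_crossCond_ne (hgmono i' i hgt) hp.1 (congrArg Fin.val h)
        have hI : Interleave (r i') (b p.1) (r i) (b p.2) :=
          (interleave_iff_crossCond n b hb (r i') (r i) hgt (hrb i') (hrb i) p.1 p.2 hp12).2 hp.1
        refine ⟨fun h => hp12 h.symm, hp.2.symm, ?_⟩
        exact (interleave_symm (r i) (b p.2) (r i') (b p.1) hne (hrb i p.1)
          (fun h => hrb i' p.2 h.symm) (fun h => hp12 (hb.injective h).symm) (hrb i p.2)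
          (hrb i' p.1)).2 hI
      · exact Prod.swap_injective.injOn
  have hsum := sum_cuts m D (fun i => σ (g i) (page i)) A hstep
  refine le_trans hsum ?_
  set T : Finset ((Fin m × Fin n) × (Fin m × Fin n)) :=
    univ.filter (fun p => p.1.1 < p.2.1 ∧ p.1.2 ≠ p.2.2 ∧ page p.1.1 p.1.2 = page p.2.1 p.2.2 ∧
      Interleave (r p.1.1) (b p.1.2) (r p.2.1) (b p.2.2)) with hT
  have hS : {p : (Fin m × Fin n) × (Fin m × Fin n) |
      p.1.1 < p.2.1 ∧ p.1.2 ≠ p.2.2 ∧ page p.1.1 p.1.2 = page p.2.1 p.2.2 ∧
        Interleave (r p.1.1) (b p.1.2) (r p.2.1) (b p.2.2)} = ↑T := by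
    ext p
    simp only [hT, coe_filter, mem_univ, true_and]
  rw [hS, Set.ncard_coe_finset]
  have hmaps : Set.MapsTo (fun p : (Fin m × Fin n) × (Fin m × Fin n) => (p.1.1, p.2.1)) ↑T
      ↑(univ.filter (fun p : Fin m × Fin m => p.1 < p.2)) := by
    intro p hp
    simp only [hT, coe_filter, mem_univ, true_and, Set.mem_ofPred_eq] at hp ⊢
    exact hp.1
  rw [Finset.card_eq_sum_card_fiberwise hmaps]
  apply Finset.sum_le_sum
  intro p hp
  simp only [mem_filter, mem_univ, true_and] at hp
  apply Finset.card_le_card_of_injOn (fun q : Fin n × Fin n => ((p.1, q.1), (p.2, q.2)))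
  · intro q hq
    simp only [hT, Finset.mem_coe, mem_filter, mem_univ, true_and] at hq ⊢
    exact ⟨⟨hp, hq.1, hq.2.1, hq.2.2⟩, trivial⟩
  · intro q1 _ q2 _ h
    simp only [Prod.mk.injEq, true_and] at h
    exact Prod.ext h.1 h.2

/-- T4: the generic reduction: a certificate `σ` for `n` points gives the lower bound
`D * ⌊m/2⌋⌊(m-1)/2⌋` for every two-page drawing of `K_{m,n}`. -/
theorem twoPage_of_cert (n D : ℕ) (σ : ℕ → (Fin n → Bool) → Fin D → Bool)
    (hcert : ∀ (g g' : ℕ) (x x' : Fin n → Bool), g ≤ g' → g' ≤ n →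
      ((Finset.univ : Finset (Fin D)).filter (fun k => σ g x k = σ g' x' k)).card ≤
        ((Finset.univ : Finset (Fin n × Fin n)).filter
          (fun p => CrossCond g g' p.1 p.2 ∧ x p.1 = x' p.2)).card)
    (m : ℕ) (r : Fin m → ℝ) (b : Fin n → ℝ) (page : Fin m → Fin n → Bool)
    (hr : Function.Injective r) (hb : Function.Injective b) (hrb : ∀ i j, r i ≠ b j) :
    D * ((m / 2) * ((m - 1) / 2)) ≤
      Set.ncard {p : (Fin m × Fin n) × (Fin m × Fin n) |
        p.1.1 < p.2.1 ∧ p.1.2 ≠ p.2.2 ∧ page p.1.1 p.1.2 = page p.2.1 p.2.2 ∧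
          Interleave (r p.1.1) (b p.1.2) (r p.2.1) (b p.2.2)} := by
  classical
  set e : Equiv.Perm (Fin n) := Tuple.sort b with he
  have hmono : StrictMono (b ∘ e) :=
    (Tuple.monotone_sort b).strictMono_of_injective (hb.comp e.injective)
  have h := reduce_sorted n D σ hcert m r (b ∘ e) (fun i j => page i (e j)) hr hmono
    (fun i j => hrb i (e j))
  refine le_trans h ?_
  set Φ : (Fin m × Fin n) × (Fin m × Fin n) → (Fin m × Fin n) × (Fin m × Fin n) :=
    fun p => ((p.1.1, e p.1.2), (p.2.1, e p.2.2)) with hΦ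
  have hinj : Function.Injective Φ := by
    intro p q hpq
    simp only [hΦ, Prod.mk.injEq, EmbeddingLike.apply_eq_iff_eq] at hpq
    exact Prod.ext (Prod.ext hpq.1.1 hpq.1.2) (Prod.ext hpq.2.1 hpq.2.2)
  rw [← Set.ncard_image_of_injective _ hinj]
  apply Set.ncard_le_ncard _ (Set.toFinite _)
  rintro _ ⟨p, hp, rfl⟩
  simp only [Set.mem_ofPred_eq, Function.comp_apply] at hp ⊢
  exact ⟨hp.1, fun h => hp.2.1 (e.injective h), hp.2.2.1, hp.2.2.2⟩

end Vale.Agent.Lib.P040.TP
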