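import Vale.Agent.Lib.P040.TP.Defs

/-!
# Two-page drawings: from `n` to `n + 1` points of the second class

Deleting one of the `n + 1` points leaves a two-page drawing with `n` points. Summing the bound
for `n` points over the `n + 1` deletions counts every crossing exactly `n - 1` times.
-/

namespace Vale.Agent.Lib.P040.TP

/-- T6: from `n` to `n + 1` points by deleting one point at a time. -/
theorem twoPage_succ (n D : ℕ)
    (h : ∀ (m : ℕ) (r : Fin m → ℝ) (b : Fin n → ℝ) (page : Fin m → Fin n → Bool),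
      Function.Injective r → Function.Injective b → (∀ i j, r i ≠ b j) →
      D * ((m / 2) * ((m - 1) / 2)) ≤
        Set.ncard {p : (Fin m × Fin n) × (Fin m × Fin n) |
          p.1.1 < p.2.1 ∧ p.1.2 ≠ p.2.2 ∧ page p.1.1 p.1.2 = page p.2.1 p.2.2 ∧
            Interleave (r p.1.1) (b p.1.2) (r p.2.1) (b p.2.2)})
    (m : ℕ) (r : Fin m → ℝ) (b : Fin (n + 1) → ℝ) (page : Fin m → Fin (n + 1) → Bool)
    (hr : Function.Injective r) (hb : Function.Injective b) (hrb : ∀ i j, r i ≠ b j) :
    (n + 1) * (D * ((m / 2) * ((m - 1) / 2))) ≤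
      (n - 1) * Set.ncard {p : (Fin m × Fin (n + 1)) × (Fin m × Fin (n + 1)) |
        p.1.1 < p.2.1 ∧ p.1.2 ≠ p.2.2 ∧ page p.1.1 p.1.2 = page p.2.1 p.2.2 ∧
          Interleave (r p.1.1) (b p.1.2) (r p.2.1) (b p.2.2)} := by
  classical
  set P : (Fin m × Fin (n + 1)) × (Fin m × Fin (n + 1)) → Prop := fun p =>
    p.1.1 < p.2.1 ∧ p.1.2 ≠ p.2.2 ∧ page p.1.1 p.1.2 = page p.2.1 p.2.2 ∧
      Interleave (r p.1.1) (b p.1.2) (r p.2.1) (b p.2.2) with hP
  have hS : Set.ncard {p | P p} = (Finset.univ.filter P).card := by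
    rw [Set.ncard_eq_toFinset_card']
    congr 1
    ext p
    simp
  have key : ∀ t : Fin (n + 1), D * ((m / 2) * ((m - 1) / 2)) ≤
      ((Finset.univ.filter P).filter (fun p => p.1.2 ≠ t ∧ p.2.2 ≠ t)).card := by
    intro t
    have h1 := h m r (b ∘ t.succAbove) (fun i j => page i (t.succAbove j)) hr
      (hb.comp Fin.succAbove_right_injective) (fun i j => hrb i _)
    refine h1.trans ?_
    rw [Set.ncard_eq_toFinset_card']
    apply Finset.card_le_card_of_injOn
      (fun p => ((p.1.1, t.succAbove p.1.2), (p.2.1, t.succAbove p.2.2)))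
    · intro p hp
      have hp' : p.1.1 < p.2.1 ∧ p.1.2 ≠ p.2.2 ∧
          page p.1.1 (t.succAbove p.1.2) = page p.2.1 (t.succAbove p.2.2) ∧
            Interleave (r p.1.1) (b (t.succAbove p.1.2)) (r p.2.1) (b (t.succAbove p.2.2)) := by
        simpa using hp
      obtain ⟨h1, h2, h3, h4⟩ := hp'
      simp only [Finset.coe_filter, Finset.mem_filter, Finset.mem_univ, true_and,
        Set.mem_ofPred_eq, hP]
      refine ⟨⟨h1, ?_, h3, h4⟩, Fin.succAbove_ne t _, Fin.succAbove_ne t _⟩
      intro h5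
      exact h2 (Fin.succAbove_right_injective h5)
    · intro p _ q _ hpq
      simp only [Prod.mk.injEq] at hpq
      obtain ⟨⟨h1, h2⟩, h3, h4⟩ := hpq
      have h2' := Fin.succAbove_right_injective h2
      have h4' := Fin.succAbove_right_injective h4
      exact Prod.ext (Prod.ext h1 h2') (Prod.ext h3 h4')
  have cnt : ∀ p ∈ Finset.univ.filter P,
      (Finset.univ.filter (fun t : Fin (n + 1) => p.1.2 ≠ t ∧ p.2.2 ≠ t)).card = n - 1 := by
    intro p hp
    have hne : p.1.2 ≠ p.2.2 := by
      have := (Finset.mem_filter.mp hp).2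
      exact this.2.1
    have : Finset.univ.filter (fun t : Fin (n + 1) => p.1.2 ≠ t ∧ p.2.2 ≠ t) =
        (Finset.univ : Finset (Fin (n + 1))) \ {p.1.2, p.2.2} := by
      ext t
      simp only [Finset.mem_filter, Finset.mem_univ, true_and, Finset.mem_sdiff,
        Finset.mem_insert, Finset.mem_singleton, not_or]
      constructor
      · rintro ⟨h1, h2⟩
        exact ⟨fun h => h1 h.symm, fun h => h2 h.symm⟩
      · rintro ⟨h1, h2⟩
        exact ⟨fun h => h1 h.symm, fun h => h2 h.symm⟩
    rw [this, Finset.card_sdiff_of_subset (Finset.subset_univ _), Finset.card_univ,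
      Fintype.card_fin, Finset.card_pair hne]
    omega
  have sum1 : ∑ t : Fin (n + 1),
      ((Finset.univ.filter P).filter (fun p => p.1.2 ≠ t ∧ p.2.2 ≠ t)).card =
        (n - 1) * (Finset.univ.filter P).card := by
    simp_rw [Finset.card_filter _ (Finset.univ.filter P)]
    rw [Finset.sum_comm]
    rw [Finset.sum_congr rfl (fun p hp => by
      rw [← Finset.card_filter, cnt p hp])]
    rw [Finset.sum_const, smul_eq_mul, mul_comm]
  calc (n + 1) * (D * ((m / 2) * ((m - 1) / 2)))
      = ∑ _t : Fin (n + 1), D * ((m / 2) * ((m - 1) / 2)) := by simp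
    _ ≤ ∑ t : Fin (n + 1),
        ((Finset.univ.filter P).filter (fun p => p.1.2 ≠ t ∧ p.2.2 ≠ t)).card :=
      Finset.sum_le_sum (fun t _ => key t)
    _ = (n - 1) * (Finset.univ.filter P).card := sum1
    _ = (n - 1) * Set.ncard {p | P p} := by rw [hS]

end Vale.Agent.Lib.P040.TP
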