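import Vale.Agent.Lib.P040.TP.Reduce
import Vale.Agent.Lib.P040.TP.Succ
import Vale.Agent.Lib.P040.TP.Cert7
import Vale.Agent.Lib.P040.TP.Cert7BridgeA
import Vale.Agent.Lib.P040.TP.Cert7BridgeC

/-!
# Two-page drawings of `K_{m,7}` and `K_{m,8}`

Assembly of the certificate for seven points with the generic reduction, and the deletion
count for eight points.
-/

namespace Vale.Agent.Lib.P040.TP

/-- The nine-bit vector of a vertex in gap `g` with page vector `x`. -/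
def sigma7 (g : ℕ) (x : Fin 7 → Bool) (k : Fin 9) : Bool := bitB (sig7 g (code7 x)) (k : ℕ)

theorem sig7_lt (g c : ℕ) : sig7 g c < 512 := Nat.mod_lt _ (by norm_num)

theorem cert7 (g g' : ℕ) (x x' : Fin 7 → Bool) (h : g ≤ g') (h' : g' ≤ 7) :
    ((Finset.univ : Finset (Fin 9)).filter (fun k => sigma7 g x k = sigma7 g' x' k)).card ≤
      ((Finset.univ : Finset (Fin 7 × Fin 7)).filter
        (fun p => CrossCond g g' p.1 p.2 ∧ x p.1 = x' p.2)).card := by
  have h1 := cert7_raw g g' (code7 x) (code7 x') h h' (code7_lt x) (code7_lt x')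
  rw [agree9_eq _ _ (sig7_lt _ _) (sig7_lt _ _),
    cr7_eq g g' _ _ h h' (code7_lt x) (code7_lt x')] at h1
  simp only [bitB_code7] at h1
  exact h1

/-- Every two-page drawing of `K_{m,7}` has at least `9 ⌊m/2⌋⌊(m-1)/2⌋` crossings. -/
theorem twoPage7 (m : ℕ) (r : Fin m → ℝ) (b : Fin 7 → ℝ) (page : Fin m → Fin 7 → Bool)
    (hr : Function.Injective r) (hb : Function.Injective b) (hrb : ∀ i j, r i ≠ b j) :
    9 * ((m / 2) * ((m - 1) / 2)) ≤
      Set.ncard {p : (Fin m × Fin 7) × (Fin m × Fin 7) |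
        p.1.1 < p.2.1 ∧ p.1.2 ≠ p.2.2 ∧ page p.1.1 p.1.2 = page p.2.1 p.2.2 ∧
          Interleave (r p.1.1) (b p.1.2) (r p.2.1) (b p.2.2)} :=
  twoPage_of_cert 7 9 sigma7 cert7 m r b page hr hb hrb

/-- Every two-page drawing of `K_{m,8}` has at least `12 ⌊m/2⌋⌊(m-1)/2⌋` crossings. -/
theorem twoPage8 (m : ℕ) (r : Fin m → ℝ) (b : Fin 8 → ℝ) (page : Fin m → Fin 8 → Bool)
    (hr : Function.Injective r) (hb : Function.Injective b) (hrb : ∀ i j, r i ≠ b j) :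
    12 * ((m / 2) * ((m - 1) / 2)) ≤
      Set.ncard {p : (Fin m × Fin 8) × (Fin m × Fin 8) |
        p.1.1 < p.2.1 ∧ p.1.2 ≠ p.2.2 ∧ page p.1.1 p.1.2 = page p.2.1 p.2.2 ∧
          Interleave (r p.1.1) (b p.1.2) (r p.2.1) (b p.2.2)} := by
  have h : 8 * (9 * ((m / 2) * ((m - 1) / 2))) ≤
      6 * Set.ncard {p : (Fin m × Fin 8) × (Fin m × Fin 8) |
        p.1.1 < p.2.1 ∧ p.1.2 ≠ p.2.2 ∧ page p.1.1 p.1.2 = page p.2.1 p.2.2 ∧
          Interleave (r p.1.1) (b p.1.2) (r p.2.1) (b p.2.2)} :=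
    twoPage_succ 7 9 twoPage7 m r b page hr hb hrb
  omega

end Vale.Agent.Lib.P040.TP
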